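import Mathlib
import Vale.Agent.Lib.P243.R3.Defs

/-!
# P243, `r_3 > 1/3`, module M4 (hitting set) in abstract star-pair form

A pair `p, q` of points of a convex body `K` is a *star pair* if every boundary point `x` of `K`
is joined to `p` or to `q` by a segment lying in the boundary.  We show that there are three
segments in `K` whose union meets every star pair (`M4s_exists_hitting`).
-/

namespace Vale.Agent.Lib.P243.R3.H39

open Set Module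

/-- Star pair: every boundary point sees `p` or `q` along the boundary. -/
def M4s_Star (K : Set E3) (p q : E3) : Prop :=
  ∀ x ∈ frontier K, segment ℝ p x ⊆ frontier K ∨ segment ℝ q x ⊆ frontier K

/-- Facet plane `{f = c}`: a supporting plane containing three non-collinear points of `K`. -/
def M4s_Facet (K : Set E3) (f : E3 →L[ℝ] ℝ) (c : ℝ) : Prop :=
  f ≠ 0 ∧ (∀ y ∈ K, f y ≤ c) ∧ ∃ y1 ∈ K, ∃ y2 ∈ K, ∃ y3 ∈ K,
    f y1 = c ∧ f y2 = c ∧ f y3 = c ∧ LinearIndependent ℝ ![y2 - y1, y3 - y1]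

/-! ### Elementary facts on functionals -/

theorem M4s_exists_gt {h : E3 →L[ℝ] ℝ} (hh : h ≠ 0) {U : Set E3} (hU : IsOpen U) {z : E3}
    (hz : z ∈ U) : ∃ z' ∈ U, h z < h z' := by
  obtain ⟨w, hw⟩ : ∃ w, h w ≠ 0 := by
    by_contra hcon
    push Not at hcon
    exact hh (ContinuousLinearMap.ext hcon)
  obtain ⟨w, hw⟩ : ∃ w, 0 < h w := by
    rcases lt_or_gt_of_ne hw with h1 | h1
    · exact ⟨-w, by simpa using h1⟩
    · exact ⟨w, h1⟩
  have hc : ContinuousAt (fun t : ℝ => z + t • w) 0 := by fun_prop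
  have h0 : (fun t : ℝ => z + t • w) 0 ∈ U := by simpa using hz
  have hmem : ∀ᶠ t in nhds (0 : ℝ), z + t • w ∈ U := hc.preimage_mem_nhds (hU.mem_nhds h0)
  obtain ⟨t, htm, ht⟩ := ((hmem.filter_mono nhdsWithin_le_nhds).and
      (self_mem_nhdsWithin : Ioi (0 : ℝ) ∈ nhdsWithin 0 (Ioi 0))).exists
  refine ⟨z + t • w, htm, ?_⟩
  have : 0 < t * h w := mul_pos ht hw
  simp only [map_add, map_smul, smul_eq_mul]
  linarith

theorem M4s_exists_support {K : Set E3} (hK : Body K) {x : E3} (hx : x ∈ frontier K) :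
    ∃ f : E3 →L[ℝ] ℝ, f ≠ 0 ∧ ∀ y ∈ K, f y ≤ f x := by
  have hxi : x ∉ interior K := hx.2
  obtain ⟨f, hf⟩ := geometric_hahn_banach_open_point hK.conv.interior isOpen_interior hxi
  refine ⟨f, ?_, ?_⟩
  · rintro rfl
    obtain ⟨a, ha⟩ := hK.int
    simpa using hf a ha
  · intro y hy
    have hy' : y ∈ closure (interior K) := by
      rw [hK.conv.closure_interior_eq_closure_of_nonempty_interior hK.int]
      exact subset_closure hy
    have hcl : IsClosed {a : E3 | f a ≤ f x} := isClosed_le f.continuous continuous_const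
    exact closure_minimal (fun a ha => (hf a ha).le) hcl hy'

theorem M4s_mem_frontier_of_max {K : Set E3} {f : E3 →L[ℝ] ℝ} (hf : f ≠ 0) {c : ℝ}
    (hle : ∀ y ∈ K, f y ≤ c) {x : E3} (hx : x ∈ K) (hfx : f x = c) : x ∈ frontier K := by
  refine ⟨subset_closure hx, fun hxi => ?_⟩
  obtain ⟨z', hz', hlt⟩ := M4s_exists_gt hf isOpen_interior hxi
  have := hle z' (interior_subset hz')
  linarith

theorem M4s_half_mem_segment (a b : E3) : (1 / 2 : ℝ) • (a + b) ∈ segment ℝ a b :=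
  ⟨1 / 2, 1 / 2, by norm_num, by norm_num, by norm_num, by rw [smul_add]⟩

theorem M4s_sup {K : Set E3} (hK : Body K) {a b : E3} (ha : a ∈ K) (hb : b ∈ K)
    (hm : (1 / 2 : ℝ) • (a + b) ∈ frontier K) :
    ∃ f : E3 →L[ℝ] ℝ, ∃ c : ℝ, f ≠ 0 ∧ (∀ y ∈ K, f y ≤ c) ∧ f a = c ∧ f b = c := by
  obtain ⟨f, hf, hle⟩ := M4s_exists_support hK hm
  have hmid : f ((1 / 2 : ℝ) • (a + b)) = (f a + f b) / 2 := by
    simp only [map_smul, map_add, smul_eq_mul]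
    ring
  have h1 := hle a ha
  have h2 := hle b hb
  exact ⟨f, f ((1 / 2 : ℝ) • (a + b)), hf, hle, by linarith, by linarith⟩

/-! ### Linear algebra in dimension three -/

theorem M4s_ker_eq {f : E3 →L[ℝ] ℝ} (hf : f ≠ 0) {u v : E3}
    (hind : LinearIndependent ℝ ![u, v]) (hu : f u = 0) (hv : f v = 0) :
    LinearMap.ker (f : E3 →ₗ[ℝ] ℝ) = Submodule.span ℝ (Set.range ![u, v]) := by
  symm
  apply Submodule.eq_of_le_of_finrank_eq
  · rw [Submodule.span_le]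
    rintro _ ⟨i, rfl⟩
    fin_cases i
    · simpa using hu
    · simpa using hv
  · rw [finrank_span_eq_card hind]
    have hf' : (f : E3 →ₗ[ℝ] ℝ) ≠ 0 := by
      intro h
      apply hf
      ext x
      have := congrArg (fun g : E3 →ₗ[ℝ] ℝ => g x) h
      simpa using this
    have h3 := Module.Dual.finrank_ker_add_one_of_ne_zero hf'
    rw [finrank_euclideanSpace_fin] at h3
    simp only [Fintype.card_fin]
    omega

theorem M4s_plane_unique {f g : E3 →L[ℝ] ℝ} (hf : f ≠ 0) (hg : g ≠ 0) {c c' : ℝ} {y1 y2 y3 : E3}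
    (hind : LinearIndependent ℝ ![y2 - y1, y3 - y1])
    (hf1 : f y1 = c) (hf2 : f y2 = c) (hf3 : f y3 = c)
    (hg1 : g y1 = c') (hg2 : g y2 = c') (hg3 : g y3 = c') (z : E3) :
    f z = c ↔ g z = c' := by
  have hkf := M4s_ker_eq hf hind (by rw [map_sub, hf2, hf1, sub_self])
    (by rw [map_sub, hf3, hf1, sub_self])
  have hkg := M4s_ker_eq hg hind (by rw [map_sub, hg2, hg1, sub_self])
    (by rw [map_sub, hg3, hg1, sub_self])
  have hk : LinearMap.ker (f : E3 →ₗ[ℝ] ℝ) = LinearMap.ker (g : E3 →ₗ[ℝ] ℝ) :=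
    hkf.trans hkg.symm
  have h1 : f z = c ↔ z - y1 ∈ LinearMap.ker (f : E3 →ₗ[ℝ] ℝ) := by
    rw [LinearMap.mem_ker]
    simp [hf1, sub_eq_zero]
  have h2 : g z = c' ↔ z - y1 ∈ LinearMap.ker (g : E3 →ₗ[ℝ] ℝ) := by
    rw [LinearMap.mem_ker]
    simp [hg1, sub_eq_zero]
  rw [h1, h2, hk]

theorem M4s_exists_common_zero (f1 f2 : E3 →L[ℝ] ℝ) :
    ∃ d : E3, d ≠ 0 ∧ f1 d = 0 ∧ f2 d = 0 := by
  have h : LinearMap.ker ((f1 : E3 →ₗ[ℝ] ℝ).prod (f2 : E3 →ₗ[ℝ] ℝ)) ≠ ⊥ := by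
    apply LinearMap.ker_ne_bot_of_finrank_lt
    rw [finrank_euclideanSpace_fin]
    simp
  obtain ⟨d, hd, hd0⟩ := (Submodule.ne_bot_iff _).1 h
  rw [LinearMap.mem_ker] at hd
  have hd1 : f1 d = 0 := by simpa using congrArg Prod.fst hd
  have hd2 : f2 d = 0 := by simpa using congrArg Prod.snd hd
  exact ⟨d, hd0, hd1, hd2⟩

theorem M4s_exists_functional (u d : E3) :
    ∃ h : E3 →L[ℝ] ℝ, h ≠ 0 ∧ h u = 0 ∧ h d = 0 := by
  obtain ⟨n, hn, h1, h2⟩ := M4s_exists_common_zero (innerSL ℝ u) (innerSL ℝ d)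
  refine ⟨innerSL ℝ n, ?_, ?_, ?_⟩
  · intro h0
    have : (innerSL ℝ n) n = 0 := by rw [h0]; simp
    rw [innerSL_apply_apply, real_inner_self_eq_norm_sq] at this
    exact hn (by simpa using this)
  · rw [innerSL_apply_apply, real_inner_comm]
    simpa using h1
  · rw [innerSL_apply_apply, real_inner_comm]
    simpa using h2

theorem M4s_col {a b z : E3} (hab : a ≠ b) (h : ¬ LinearIndependent ℝ ![b - a, z - a]) :
    ∃ r : ℝ, z - a = r • (b - a) := by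
  have hne : b - a ≠ 0 := sub_ne_zero.2 (Ne.symm hab)
  rw [LinearIndependent.pair_iff' hne] at h
  push Not at h
  obtain ⟨r, hr⟩ := h
  exact ⟨r, hr.symm⟩

/-! ### Facets and star pairs -/

theorem M4s_centroid_mem {K : Set E3} (hK : Body K) {y1 y2 y3 : E3} (h1 : y1 ∈ K) (h2 : y2 ∈ K)
    (h3 : y3 ∈ K) : (1 / 3 : ℝ) • (y1 + y2 + y3) ∈ K := by
  have hm : (1 / 2 : ℝ) • y1 + (1 / 2 : ℝ) • y2 ∈ K :=
    hK.conv h1 h2 (by norm_num) (by norm_num) (by norm_num)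
  have hx : (2 / 3 : ℝ) • ((1 / 2 : ℝ) • y1 + (1 / 2 : ℝ) • y2) + (1 / 3 : ℝ) • y3 ∈ K :=
    hK.conv hm h3 (by norm_num) (by norm_num) (by norm_num)
  have e : (1 / 3 : ℝ) • (y1 + y2 + y3)
      = (2 / 3 : ℝ) • ((1 / 2 : ℝ) • y1 + (1 / 2 : ℝ) • y2) + (1 / 3 : ℝ) • y3 := by
    module
  rw [e]
  exact hx

/-- If `a ∈ K` sees the centroid of a facet triple along the boundary, then `a` lies on the
facet plane. -/
theorem M4s_facet_aux {K : Set E3} (hK : Body K) {f : E3 →L[ℝ] ℝ} {c : ℝ} (hf : f ≠ 0)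
    {y1 y2 y3 : E3} (h1 : y1 ∈ K) (h2 : y2 ∈ K) (h3 : y3 ∈ K)
    (hf1 : f y1 = c) (hf2 : f y2 = c) (hf3 : f y3 = c)
    (hind : LinearIndependent ℝ ![y2 - y1, y3 - y1]) {a : E3} (ha : a ∈ K)
    (hseg : segment ℝ a ((1 / 3 : ℝ) • (y1 + y2 + y3)) ⊆ frontier K) : f a = c := by
  have hxK := M4s_centroid_mem hK h1 h2 h3
  obtain ⟨g, c', hg, hgle, hga, hgx⟩ := M4s_sup hK ha hxK (hseg (M4s_half_mem_segment a _))
  have hgx' : g ((1 / 3 : ℝ) • (y1 + y2 + y3)) = (g y1 + g y2 + g y3) / 3 := by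
    simp only [map_smul, map_add, smul_eq_mul]
    ring
  have e1 := hgle y1 h1
  have e2 := hgle y2 h2
  have e3 := hgle y3 h3
  have g1 : g y1 = c' := by linarith
  have g2 : g y2 = c' := by linarith
  have g3 : g y3 = c' := by linarith
  exact (M4s_plane_unique hf hg hind hf1 hf2 hf3 g1 g2 g3 a).2 hga

/-- Every facet plane contains an endpoint of every star pair. -/
theorem M4s_facet_star {K : Set E3} (hK : Body K) {f : E3 →L[ℝ] ℝ} {c : ℝ}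
    (hF : M4s_Facet K f c) {p q : E3} (hp : p ∈ K) (hq : q ∈ K) (hS : M4s_Star K p q) :
    f p = c ∨ f q = c := by
  obtain ⟨hf, hle, y1, h1, y2, h2, y3, h3, hf1, hf2, hf3, hind⟩ := hF
  have hxK := M4s_centroid_mem hK h1 h2 h3
  have hfx : f ((1 / 3 : ℝ) • (y1 + y2 + y3)) = c := by
    simp only [map_smul, map_add, smul_eq_mul, hf1, hf2, hf3]
    ring
  have hxF := M4s_mem_frontier_of_max hf hle hxK hfx
  rcases hS _ hxF with h | h
  · exact Or.inl (M4s_facet_aux hK hf h1 h2 h3 hf1 hf2 hf3 hind hp h)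
  · exact Or.inr (M4s_facet_aux hK hf h1 h2 h3 hf1 hf2 hf3 hind hq h)

/-! ### Case (i): three facet planes -/

theorem M4s_segment_of_collinear {S : Set E3} (hc : IsCompact S) (hne : S.Nonempty)
    (hcol : ∀ y1 ∈ S, ∀ y2 ∈ S, ∀ y3 ∈ S, ¬ LinearIndependent ℝ ![y2 - y1, y3 - y1]) :
    ∃ α ∈ S, ∃ β ∈ S, S ⊆ segment ℝ α β := by
  obtain ⟨⟨α, β⟩, ⟨hα, hβ⟩, hmax⟩ := (hc.prod hc).exists_isMaxOn (hne.prod hne)
    (continuous_dist.continuousOn : ContinuousOn (fun ab : E3 × E3 => dist ab.1 ab.2) (S ×ˢ S))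
  simp only at hα hβ
  refine ⟨α, hα, β, hβ, fun z hz => ?_⟩
  have hzα : dist z α ≤ dist α β := isMaxOn_iff.1 hmax (z, α) ⟨hz, hα⟩
  have hzβ : dist z β ≤ dist α β := isMaxOn_iff.1 hmax (z, β) ⟨hz, hβ⟩
  by_cases hab : α = β
  · subst hab
    have hzz : z = α := by simpa using hzα
    rw [hzz]
    exact left_mem_segment ℝ α α
  · obtain ⟨r, hr⟩ := M4s_col hab (hcol α hα β hβ z hz)
    have hz' : z = α + r • (β - α) := by rw [← hr]; abel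
    have hd : 0 < dist α β := dist_pos.2 hab
    have e1 : dist z α = |r| * dist α β := by
      rw [dist_eq_norm, hr, norm_smul, Real.norm_eq_abs, dist_comm α β, dist_eq_norm]
    have e2 : dist z β = |1 - r| * dist α β := by
      have e : z - β = (1 - r) • (α - β) := by rw [hz']; module
      rw [dist_eq_norm, e, norm_smul, Real.norm_eq_abs, dist_eq_norm]
    have hr1 : |r| ≤ 1 := by
      by_contra hcon
      push Not at hcon
      nlinarith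
    have hr2 : |1 - r| ≤ 1 := by
      by_contra hcon
      push Not at hcon
      nlinarith
    rw [abs_le] at hr1 hr2
    refine ⟨1 - r, r, by linarith, by linarith, by ring, ?_⟩
    rw [hz']
    module

theorem M4s_pair_segment {K : Set E3} (hK : Body K) {f g : E3 →L[ℝ] ℝ} {c c' : ℝ}
    (hf : f ≠ 0) (hg : g ≠ 0) (hne : ¬ ∀ z, f z = c ↔ g z = c') :
    ∃ α ∈ K, ∃ β ∈ K, ∀ z ∈ K, f z = c → g z = c' → z ∈ segment ℝ α β := by
  have hSc : IsCompact (K ∩ {z | f z = c} ∩ {z | g z = c'}) :=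
    (hK.compact.inter_right (isClosed_eq f.continuous continuous_const)).inter_right
      (isClosed_eq g.continuous continuous_const)
  by_cases hne' : (K ∩ {z | f z = c} ∩ {z | g z = c'}).Nonempty
  · have hcol : ∀ y1 ∈ K ∩ {z | f z = c} ∩ {z | g z = c'}, ∀ y2 ∈ K ∩ {z | f z = c} ∩ {z | g z = c'},
        ∀ y3 ∈ K ∩ {z | f z = c} ∩ {z | g z = c'},
        ¬ LinearIndependent ℝ ![y2 - y1, y3 - y1] := by
      intro y1 h1 y2 h2 y3 h3 hind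
      exact hne (M4s_plane_unique hf hg hind h1.1.2 h2.1.2 h3.1.2 h1.2 h2.2 h3.2)
    obtain ⟨α, hα, β, hβ, hsub⟩ := M4s_segment_of_collinear hSc hne' hcol
    exact ⟨α, hα.1.1, β, hβ.1.1, fun z hz h1 h2 => hsub ⟨⟨hz, h1⟩, h2⟩⟩
  · obtain ⟨x0, hx0⟩ := hK.int
    refine ⟨x0, interior_subset hx0, x0, interior_subset hx0, fun z hz h1 h2 => ?_⟩
    exact absurd ⟨z, ⟨⟨hz, h1⟩, h2⟩⟩ hne'

theorem M4s_case_three {K : Set E3} (hK : Body K) {f1 f2 f3 : E3 →L[ℝ] ℝ} {c1 c2 c3 : ℝ}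
    (hF1 : M4s_Facet K f1 c1) (hF2 : M4s_Facet K f2 c2) (hF3 : M4s_Facet K f3 c3)
    (h12 : ¬ ∀ z, f1 z = c1 ↔ f2 z = c2) (h13 : ¬ ∀ z, f1 z = c1 ↔ f3 z = c3)
    (h23 : ¬ ∀ z, f2 z = c2 ↔ f3 z = c3) :
    ∃ α β : Fin 3 → E3, (∀ j, α j ∈ K ∧ β j ∈ K) ∧
      ∀ p ∈ K, ∀ q ∈ K, M4s_Star K p q →
        (p ∈ ⋃ j, segment ℝ (α j) (β j)) ∨ (q ∈ ⋃ j, segment ℝ (α j) (β j)) := by
  obtain ⟨α12, hα12, β12, hβ12, H12⟩ := M4s_pair_segment hK hF1.1 hF2.1 h12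
  obtain ⟨α13, hα13, β13, hβ13, H13⟩ := M4s_pair_segment hK hF1.1 hF3.1 h13
  obtain ⟨α23, hα23, β23, hβ23, H23⟩ := M4s_pair_segment hK hF2.1 hF3.1 h23
  refine ⟨![α12, α13, α23], ![β12, β13, β23], ?_, ?_⟩
  · intro j
    fin_cases j <;> simp [*]
  · intro p hp q hq hS
    have m0 : ∀ z, z ∈ segment ℝ α12 β12 →
        z ∈ ⋃ j, segment ℝ (![α12, α13, α23] j) (![β12, β13, β23] j) :=
      fun z hz => mem_iUnion.2 ⟨0, hz⟩
    have m1 : ∀ z, z ∈ segment ℝ α13 β13 →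
        z ∈ ⋃ j, segment ℝ (![α12, α13, α23] j) (![β12, β13, β23] j) :=
      fun z hz => mem_iUnion.2 ⟨1, hz⟩
    have m2 : ∀ z, z ∈ segment ℝ α23 β23 →
        z ∈ ⋃ j, segment ℝ (![α12, α13, α23] j) (![β12, β13, β23] j) :=
      fun z hz => mem_iUnion.2 ⟨2, hz⟩
    rcases M4s_facet_star hK hF1 hp hq hS with a1 | a1 <;>
    rcases M4s_facet_star hK hF2 hp hq hS with a2 | a2 <;>
    rcases M4s_facet_star hK hF3 hp hq hS with a3 | a3
    · exact Or.inl (m0 p (H12 p hp a1 a2))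
    · exact Or.inl (m0 p (H12 p hp a1 a2))
    · exact Or.inl (m1 p (H13 p hp a1 a3))
    · exact Or.inr (m2 q (H23 q hq a2 a3))
    · exact Or.inl (m2 p (H23 p hp a2 a3))
    · exact Or.inr (m1 q (H13 q hq a1 a3))
    · exact Or.inr (m0 q (H12 q hq a1 a2))
    · exact Or.inr (m0 q (H12 q hq a1 a2))

/-! ### Case (ii): at most two facet planes -/

theorem M4s_frontier_cover {K : Set E3} (hK : Body K) {f1 f2 : E3 →L[ℝ] ℝ} {c1 c2 : ℝ}
    (hfac : ∀ (f : E3 →L[ℝ] ℝ) (c : ℝ), M4s_Facet K f c →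
      (∀ z, f z = c ↔ f1 z = c1) ∨ (∀ z, f z = c ↔ f2 z = c2))
    {p1 q1 p2 q2 : E3} (hp1 : p1 ∈ K) (hq1 : q1 ∈ K) (hp2 : p2 ∈ K) (hq2 : q2 ∈ K)
    (hS1 : M4s_Star K p1 q1) (hS2 : M4s_Star K p2 q2) {x : E3} (hx : x ∈ frontier K) :
    f1 x = c1 ∨ f2 x = c2 ∨ ∃ a1 a2 : E3, (a1 = p1 ∨ a1 = q1) ∧ (a2 = p2 ∨ a2 = q2) ∧
      ¬ LinearIndependent ℝ ![a2 - a1, x - a1] := by
  have hxK : x ∈ K := hK.compact.isClosed.frontier_subset hx
  obtain ⟨a1, ha1, ha1K, hseg1⟩ :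
      ∃ a1, (a1 = p1 ∨ a1 = q1) ∧ a1 ∈ K ∧ segment ℝ a1 x ⊆ frontier K := by
    rcases hS1 x hx with h | h
    · exact ⟨p1, Or.inl rfl, hp1, h⟩
    · exact ⟨q1, Or.inr rfl, hq1, h⟩
  have hx'F : (1 / 2 : ℝ) • (a1 + x) ∈ frontier K := hseg1 (M4s_half_mem_segment a1 x)
  have hx'K : (1 / 2 : ℝ) • (a1 + x) ∈ K := hK.compact.isClosed.frontier_subset hx'F
  obtain ⟨a2, ha2, ha2K, hseg2⟩ : ∃ a2, (a2 = p2 ∨ a2 = q2) ∧ a2 ∈ K ∧
      segment ℝ a2 ((1 / 2 : ℝ) • (a1 + x)) ⊆ frontier K := by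
    rcases hS2 _ hx'F with h | h
    · exact ⟨p2, Or.inl rfl, hp2, h⟩
    · exact ⟨q2, Or.inr rfl, hq2, h⟩
  obtain ⟨g, c', hg, hgle, hga2, hgx'⟩ :=
    M4s_sup hK ha2K hx'K (hseg2 (M4s_half_mem_segment a2 _))
  have hmid : g ((1 / 2 : ℝ) • (a1 + x)) = (g a1 + g x) / 2 := by
    simp only [map_smul, map_add, smul_eq_mul]
    ring
  have e1 := hgle a1 ha1K
  have e2 := hgle x hxK
  have hga1 : g a1 = c' := by linarith
  have hgx : g x = c' := by linarith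
  by_cases hind : LinearIndependent ℝ ![a2 - a1, x - a1]
  · have hF : M4s_Facet K g c' :=
      ⟨hg, hgle, a1, ha1K, a2, ha2K, x, hxK, hga1, hga2, hgx, hind⟩
    rcases hfac g c' hF with h | h
    · exact Or.inl ((h x).1 hgx)
    · exact Or.inr (Or.inl ((h x).1 hgx))
  · exact Or.inr (Or.inr ⟨a1, a2, ha1, ha2, hind⟩)

theorem M4s_exists_exit {K : Set E3} (hK : Body K) {z0 : E3} (hz0 : z0 ∈ K) {d : E3}
    (hd : d ≠ 0) : ∃ T : ℝ, z0 + T • d ∈ frontier K := by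
  have hcont : Continuous (fun t : ℝ => z0 + t • d) := by fun_prop
  have hAcl : IsClosed {t : ℝ | z0 + t • d ∈ K} := hK.compact.isClosed.preimage hcont
  have hAne : {t : ℝ | z0 + t • d ∈ K}.Nonempty := ⟨0, by simpa using hz0⟩
  have hAuniv : {t : ℝ | z0 + t • d ∈ K} ≠ univ := by
    intro hu
    obtain ⟨R, hR⟩ := hK.compact.isBounded.subset_closedBall (0 : E3)
    have hdn : 0 < ‖d‖ := norm_pos_iff.2 hd
    have hz0R : ‖z0‖ ≤ R := by simpa using hR hz0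
    have ht0 : 0 ≤ (R + ‖z0‖ + 1) / ‖d‖ :=
      div_nonneg (by linarith [norm_nonneg z0]) hdn.le
    have hmem : z0 + ((R + ‖z0‖ + 1) / ‖d‖) • d ∈ K := by
      have : (R + ‖z0‖ + 1) / ‖d‖ ∈ {t : ℝ | z0 + t • d ∈ K} := by rw [hu]; trivial
      exact this
    have h1 : ‖z0 + ((R + ‖z0‖ + 1) / ‖d‖) • d‖ ≤ R := by simpa using hR hmem
    have h2 : ‖((R + ‖z0‖ + 1) / ‖d‖) • d‖ ≤ ‖z0 + ((R + ‖z0‖ + 1) / ‖d‖) • d‖ + ‖z0‖ := by
      have := norm_sub_le (z0 + ((R + ‖z0‖ + 1) / ‖d‖) • d) z0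
      simpa using this
    have h3 : ‖((R + ‖z0‖ + 1) / ‖d‖) • d‖ = R + ‖z0‖ + 1 := by
      rw [norm_smul, Real.norm_eq_abs, abs_of_nonneg ht0, div_mul_cancel₀ _ hdn.ne']
    linarith
  obtain ⟨T, hT⟩ := nonempty_frontier_iff.2 ⟨hAne, hAuniv⟩
  refine ⟨T, ?_⟩
  have hTA : T ∈ {t : ℝ | z0 + t • d ∈ K} := hAcl.frontier_subset hT
  refine ⟨subset_closure hTA, fun hint => hT.2 ?_⟩
  have hopen : IsOpen ((fun t : ℝ => z0 + t • d) ⁻¹' interior K) :=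
    isOpen_interior.preimage hcont
  exact interior_maximal (preimage_mono interior_subset) hopen hint

theorem M4s_avoid {U : Set E3} (hU : IsOpen U) (hne : U.Nonempty) {h : E3 →L[ℝ] ℝ}
    (hh : h ≠ 0) (γ : ℝ) :
    ∃ U' : Set E3, IsOpen U' ∧ U'.Nonempty ∧ U' ⊆ U ∧ ∀ z ∈ U', h z ≠ γ := by
  refine ⟨U ∩ {z | h z ≠ γ}, hU.inter (isOpen_ne_fun h.continuous continuous_const), ?_,
    inter_subset_left, fun z hz => hz.2⟩
  obtain ⟨z, hz⟩ := hne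
  by_cases hzγ : h z = γ
  · obtain ⟨z', hz', hlt⟩ := M4s_exists_gt hh hU hz
    exact ⟨z', hz', by
      show h z' ≠ γ
      intro h'
      linarith⟩
  · exact ⟨z, hz, hzγ⟩

/-- If every facet plane is one of two supporting planes, any two star pairs share an
endpoint. -/
theorem M4s_share {K : Set E3} (hK : Body K) {f1 f2 : E3 →L[ℝ] ℝ} {c1 c2 : ℝ}
    (hf1 : f1 ≠ 0) (hle1 : ∀ y ∈ K, f1 y ≤ c1) (hf2 : f2 ≠ 0) (hle2 : ∀ y ∈ K, f2 y ≤ c2)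
    (hfac : ∀ (f : E3 →L[ℝ] ℝ) (c : ℝ), M4s_Facet K f c →
      (∀ z, f z = c ↔ f1 z = c1) ∨ (∀ z, f z = c ↔ f2 z = c2))
    {p1 q1 p2 q2 : E3} (hp1 : p1 ∈ K) (hq1 : q1 ∈ K) (hp2 : p2 ∈ K) (hq2 : q2 ∈ K)
    (hS1 : M4s_Star K p1 q1) (hS2 : M4s_Star K p2 q2) :
    p2 = p1 ∨ p2 = q1 ∨ q2 = p1 ∨ q2 = q1 := by
  by_contra hcon
  rw [not_or, not_or, not_or] at hcon
  obtain ⟨n1, n2, n3, n4⟩ := hcon
  obtain ⟨d, hd, hd1, hd2⟩ := M4s_exists_common_zero f1 f2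
  choose H hH0 hHu hHd using fun u : E3 => M4s_exists_functional u d
  obtain ⟨U1, hU1o, hU1n, hU1s, hU1⟩ :=
    M4s_avoid isOpen_interior hK.int (hH0 (p2 - p1)) (H (p2 - p1) p1)
  obtain ⟨U2, hU2o, hU2n, hU2s, hU2⟩ := M4s_avoid hU1o hU1n (hH0 (q2 - p1)) (H (q2 - p1) p1)
  obtain ⟨U3, hU3o, hU3n, hU3s, hU3⟩ := M4s_avoid hU2o hU2n (hH0 (p2 - q1)) (H (p2 - q1) q1)
  obtain ⟨U4, hU4o, hU4n, hU4s, hU4⟩ := M4s_avoid hU3o hU3n (hH0 (q2 - q1)) (H (q2 - q1) q1)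
  obtain ⟨z0, hz4⟩ := hU4n
  have hz3 : z0 ∈ U3 := hU4s hz4
  have hz2 : z0 ∈ U2 := hU3s hz3
  have hz1 : z0 ∈ U1 := hU2s hz2
  have hzi : z0 ∈ interior K := hU1s hz1
  have hzK : z0 ∈ K := interior_subset hzi
  obtain ⟨T, hT⟩ := M4s_exists_exit hK hzK hd
  have hzF : ∀ {f : E3 →L[ℝ] ℝ} {c : ℝ}, f ≠ 0 → (∀ y ∈ K, f y ≤ c) → f d = 0 →
      f (z0 + T • d) = c → False := by
    intro f c hf hle hfd hfe
    have hfz : f z0 = c := by
      rw [map_add, map_smul, hfd, smul_zero, add_zero] at hfe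
      exact hfe
    exact (M4s_mem_frontier_of_max hf hle hzK hfz).2 hzi
  have hline : ∀ a1 a2 : E3, a1 ≠ a2 →
      ¬ LinearIndependent ℝ ![a2 - a1, (z0 + T • d) - a1] →
      H (a2 - a1) z0 = H (a2 - a1) a1 := by
    intro a1 a2 hne hnl
    obtain ⟨r, hr⟩ := M4s_col hne hnl
    have e : H (a2 - a1) ((z0 + T • d) - a1) = 0 := by
      rw [hr, map_smul, hHu, smul_zero]
    have e' : H (a2 - a1) ((z0 + T • d) - a1) = H (a2 - a1) z0 - H (a2 - a1) a1 := by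
      rw [map_sub, map_add, map_smul, hHd, smul_zero, add_zero]
    linarith
  rcases M4s_frontier_cover hK hfac hp1 hq1 hp2 hq2 hS1 hS2 hT with
    h | h | ⟨a1, a2, ha1, ha2, hnl⟩
  · exact hzF hf1 hle1 hd1 h
  · exact hzF hf2 hle2 hd2 h
  · rcases ha1 with rfl | rfl <;> rcases ha2 with rfl | rfl
    · exact hU1 z0 hz1 (hline _ _ (Ne.symm n1) hnl)
    · exact hU2 z0 hz2 (hline _ _ (Ne.symm n3) hnl)
    · exact hU3 z0 hz3 (hline _ _ (Ne.symm n2) hnl)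
    · exact hU4 z0 hz4 (hline _ _ (Ne.symm n4) hnl)

/-! ### The hitting set -/

/-- **M4 (abstract form).** For every convex body `K` of Euclidean 3-space there are three
segments with endpoints in `K` whose union contains an endpoint of every star pair. -/
theorem M4s_exists_hitting {K : Set E3} (hK : Body K) :
    ∃ α β : Fin 3 → E3, (∀ j, α j ∈ K ∧ β j ∈ K) ∧
      ∀ p ∈ K, ∀ q ∈ K, p ≠ q →
        (∀ x ∈ frontier K, segment ℝ p x ⊆ frontier K ∨ segment ℝ q x ⊆ frontier K) →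
        (p ∈ ⋃ j, segment ℝ (α j) (β j)) ∨ (q ∈ ⋃ j, segment ℝ (α j) (β j)) := by
  by_cases h3 : ∃ (f1 f2 f3 : E3 →L[ℝ] ℝ) (c1 c2 c3 : ℝ), M4s_Facet K f1 c1 ∧
      M4s_Facet K f2 c2 ∧ M4s_Facet K f3 c3 ∧ (¬ ∀ z, f1 z = c1 ↔ f2 z = c2) ∧
      (¬ ∀ z, f1 z = c1 ↔ f3 z = c3) ∧ (¬ ∀ z, f2 z = c2 ↔ f3 z = c3)
  · obtain ⟨f1, f2, f3, c1, c2, c3, hF1, hF2, hF3, h12, h13, h23⟩ := h3
    obtain ⟨α, β, hαβ, H⟩ := M4s_case_three hK hF1 hF2 hF3 h12 h13 h23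
    exact ⟨α, β, hαβ, fun p hp q hq _ hS => H p hp q hq hS⟩
  · have htwo : ∃ (f1 f2 : E3 →L[ℝ] ℝ) (c1 c2 : ℝ), f1 ≠ 0 ∧ (∀ y ∈ K, f1 y ≤ c1) ∧
        f2 ≠ 0 ∧ (∀ y ∈ K, f2 y ≤ c2) ∧ ∀ (f : E3 →L[ℝ] ℝ) (c : ℝ), M4s_Facet K f c →
          (∀ z, f z = c ↔ f1 z = c1) ∨ (∀ z, f z = c ↔ f2 z = c2) := by
      by_cases hex : ∃ (f : E3 →L[ℝ] ℝ) (c : ℝ), M4s_Facet K f c
      · obtain ⟨f1, c1, hF1⟩ := hex
        by_cases hex2 : ∃ (f : E3 →L[ℝ] ℝ) (c : ℝ), M4s_Facet K f c ∧ ¬ ∀ z, f1 z = c1 ↔ f z = c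
        · obtain ⟨f2, c2, hF2, h12⟩ := hex2
          refine ⟨f1, f2, c1, c2, hF1.1, hF1.2.1, hF2.1, hF2.2.1, fun f c hF => ?_⟩
          by_contra hcon
          rw [not_or] at hcon
          exact h3 ⟨f1, f2, f, c1, c2, c, hF1, hF2, hF, h12,
            fun h => hcon.1 (fun z => (h z).symm), fun h => hcon.2 (fun z => (h z).symm)⟩
        · refine ⟨f1, f1, c1, c1, hF1.1, hF1.2.1, hF1.1, hF1.2.1, fun f c hF => ?_⟩
          by_contra hcon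
          exact hex2 ⟨f, c, hF, fun h' => hcon (Or.inl fun z => (h' z).symm)⟩
      · obtain ⟨f0, hf0, -, -⟩ := M4s_exists_functional 0 0
        obtain ⟨x0, hx0, hmax⟩ := hK.compact.exists_isMaxOn (hK.int.mono interior_subset)
          f0.continuous.continuousOn
        exact ⟨f0, f0, f0 x0, f0 x0, hf0, isMaxOn_iff.1 hmax, hf0, isMaxOn_iff.1 hmax,
          fun f c hF => absurd ⟨f, c, hF⟩ hex⟩
    obtain ⟨f1, f2, c1, c2, hf1, hle1, hf2, hle2, hfac⟩ := htwo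
    by_cases hex : ∃ p1 q1, p1 ∈ K ∧ q1 ∈ K ∧ M4s_Star K p1 q1
    · obtain ⟨p1, q1, hp1, hq1, hS1⟩ := hex
      refine ⟨![p1, q1, p1], ![p1, q1, p1], ?_, ?_⟩
      · intro j
        fin_cases j <;> simp [hp1, hq1]
      · intro p hp q hq _ hS
        have m0 : p1 ∈ ⋃ j, segment ℝ (![p1, q1, p1] j) (![p1, q1, p1] j) :=
          mem_iUnion.2 ⟨0, left_mem_segment ℝ _ _⟩
        have m1 : q1 ∈ ⋃ j, segment ℝ (![p1, q1, p1] j) (![p1, q1, p1] j) :=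
          mem_iUnion.2 ⟨1, left_mem_segment ℝ _ _⟩
        rcases M4s_share hK hf1 hle1 hf2 hle2 hfac hp1 hq1 hp hq hS1 hS with h | h | h | h
        · exact Or.inl (h ▸ m0)
        · exact Or.inl (h ▸ m1)
        · exact Or.inr (h ▸ m0)
        · exact Or.inr (h ▸ m1)
    · obtain ⟨x0, hx0⟩ := hK.int
      refine ⟨fun _ => x0, fun _ => x0,
        fun _ => ⟨interior_subset hx0, interior_subset hx0⟩, ?_⟩
      intro p hp q hq _ hS
      exact absurd ⟨p, q, hp, hq, hS⟩ hex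

end Vale.Agent.Lib.P243.R3.H39
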